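import Vale.Agent.P011UO.Defs

/-!
Type `D` of odd rank: descent of a projective action by similitudes to a quadratic extension.
-/

set_option autoImplicit false
set_option linter.all false

namespace Vale.Agent.P011UO2

open Matrix Vale.Agent.P011U Vale.Agent.P011LQ Vale.Agent.P011LD Vale.Agent.P011UO QuadraticMap

variable {k K : Type} [Field k] [Field K] [Algebra k K] {I : Type} [Fintype I] [DecidableEq I]
  {L : IntermediateField k K}

/-- `σ` is the identity on `L` -/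
def Fx (L : IntermediateField k K) (σ : K ≃ₐ[k] K) : Prop := ∀ x ∈ L, σ x = x

/-- `σ` acts on `L` through `s` -/
def Ac (s : L ≃ₐ[k] L) (σ : K ≃ₐ[k] K) : Prop := ∀ x : L, σ x = s x

theorem gal [IsGalois k K] (h : Module.finrank k L = 2) : ∃ (s : L ≃ₐ[k] L) (σ₀ : K ≃ₐ[k] K),
    s ≠ 1 ∧ (∀ x, s (s x) = x) ∧ Ac s σ₀ ∧ ∀ σ, Fx L σ ∨ Ac s σ := by
  haveI : Algebra.IsQuadraticExtension k L := ⟨h⟩
  haveI : FiniteDimensional k L := Module.finite_of_finrank_pos (by omega)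
  have hc : Nat.card (L ≃ₐ[k] L) = 2 := (IsGalois.card_aut_eq_finrank k L).trans h
  obtain ⟨s, hs, hu⟩ := (Nat.card_eq_two_iff' (1 : L ≃ₐ[k] L)).1 hc
  obtain ⟨σ₀, h0⟩ := AlgEquiv.restrictNormalHom_surjective (F := k) (K₁ := L) K s
  have hr : ∀ (σ : K ≃ₐ[k] K) (x : L), σ x = (AlgEquiv.restrictNormalHom L σ x : L) :=
    fun σ x => (AlgEquiv.restrictNormal_commutes σ L x).symm
  refine ⟨s, σ₀, hs, fun x => ?_, fun x => by rw [hr, h0], fun σ => ?_⟩
  · have h1 : s⁻¹ = s := hu _ (inv_ne_one.2 hs)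
    exact (congrArg (· (s x)) h1).symm.trans (s.symm_apply_apply x)
  · by_cases h1 : AlgEquiv.restrictNormalHom L σ = 1
    · exact Or.inl fun x hx => (hr σ ⟨x, hx⟩).trans (by rw [h1]; rfl)
    · exact Or.inr fun x => by rw [hr, hu _ h1]

/-- the extension of scalars of a matrix -/
def up (M : Matrix I I L) : Matrix I I K := M.map fun x => (x : K)

theorem up_mul (M N : Matrix I I L) : up (M * N) = up M * up N :=
  Matrix.map_mul (f := algebraMap L K)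

theorem up_smul (c : L) (M : Matrix I I L) : up (c • M) = (c : K) • up M :=
  Matrix.ext fun _ _ => rfl

theorem up_one : up (1 : Matrix I I L) = 1 := Matrix.map_one _ rfl rfl

theorem up_inj {M N : Matrix I I L} (h : up M = up N) : M = N :=
  Matrix.ext fun i j => Subtype.ext (congrFun (congrFun h i) j)

theorem Fx.map {σ : K ≃ₐ[k] K} (h : Fx L σ) (M : Matrix I I L) : (up M).map σ = up M :=
  Matrix.ext fun i j => h _ (M i j).2

theorem Ac.map {s : L ≃ₐ[k] L} {σ : K ≃ₐ[k] K} (h : Ac s σ) (M : Matrix I I L) :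
    (up M).map σ = up (M.map s) := Matrix.ext fun i j => h (M i j)

/-- a projective cocycle which is scalar over `L` -/
structure Pc (L : IntermediateField k K) (B : (K ≃ₐ[k] K) → Matrix I I K) : Prop where
  mul : ∀ σ τ, ∃ c : K, c ≠ 0 ∧ B σ * (B τ).map σ = c • B (σ * τ)
  ne : ∀ σ, B σ ≠ 0
  sc : ∀ σ, Fx L σ → ∃ c : K, c ≠ 0 ∧ B σ = c • 1

theorem Pc.rat [IsGalois k K] [Nonempty I] {B : (K ≃ₐ[k] K) → Matrix I I K} (h : Pc L B)
    {s : L ≃ₐ[k] L} {σ₀ : K ≃ₐ[k] K} (hs : ∀ x, s (s x) = x) (h0 : Ac s σ₀)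
    (hd : ∀ σ, Fx L σ ∨ Ac s σ) : ∃ (M : Matrix I I L) (b : k), b ≠ 0 ∧
      M * M.map s = algebraMap k L b • 1 ∧ ∀ σ, Ac s σ → ∃ e : K, e ≠ 0 ∧ B σ = e • up M := by
  have h1 : ∀ σ, Ac s σ → ∃ e : K, e ≠ 0 ∧ B σ = e • B σ₀ := fun σ hσ => by
    obtain ⟨c, hc, e1⟩ := h.mul σ₀ (σ₀⁻¹ * σ)
    obtain ⟨d, hd, e2⟩ := h.sc (σ₀⁻¹ * σ) fun x hx =>
      σ₀.symm_apply_eq.2 ((hσ ⟨x, hx⟩).trans (h0 ⟨x, hx⟩).symm)
    rw [e2, P011LD.map_smul', map_one', Matrix.mul_smul, Matrix.mul_one, mul_inv_cancel_left] at e1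
    refine ⟨c⁻¹ * σ₀ d, mul_ne_zero (inv_ne_zero hc) ((map_ne_zero σ₀).2 hd), ?_⟩
    rw [mul_smul, e1, inv_smul_smul₀ hc]
  obtain ⟨i, j, ha⟩ : ∃ i j, B σ₀ i j ≠ 0 := by
    by_contra h2
    push Not at h2
    exact h.ne σ₀ (Matrix.ext h2)
  have h2 : ∀ i' j', (B σ₀ i j)⁻¹ * B σ₀ i' j' ∈ L := fun i' j' => fixed_sub L fun τ hτ => by
    have hτ' : Fx L τ := fun x hx => hτ ⟨x, hx⟩
    obtain ⟨c, hc, e1⟩ := h.mul τ σ₀
    obtain ⟨d, hd, e2⟩ := h.sc τ hτ'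
    obtain ⟨e, he, e3⟩ := h1 (τ * σ₀) fun x => (congrArg τ (h0 x)).trans (hτ' _ (s x).2)
    rw [e2, e3, Matrix.smul_mul, Matrix.one_mul, smul_smul] at e1
    have e4 : ∀ p q, d * τ (B σ₀ p q) = c * e * B σ₀ p q := fun p q => congrFun (congrFun e1 p) q
    have e5 : ∀ p q, τ (B σ₀ p q) = d⁻¹ * (c * e) * B σ₀ p q := fun p q => by
      rw [mul_assoc, ← e4, inv_mul_cancel_left₀ hd]
    rw [map_mul, map_inv₀, e5, e5]
    field_simp
  obtain ⟨M, hM⟩ : ∃ M : Matrix I I L, B σ₀ = B σ₀ i j • up M :=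
    ⟨fun i' j' => ⟨_, h2 i' j'⟩, Matrix.ext fun i' j' => (mul_inv_cancel_left₀ ha _).symm⟩
  generalize B σ₀ i j = a at ha hM
  obtain ⟨c, hc, e1⟩ := h.mul σ₀ σ₀
  obtain ⟨d, hd', e2⟩ := h.sc (σ₀ * σ₀) fun x hx =>
    (congrArg σ₀ (h0 ⟨x, hx⟩)).trans ((h0 _).trans (congrArg Subtype.val (hs ⟨x, hx⟩)))
  have hβ : (a * σ₀ a)⁻¹ * (c * d) ≠ 0 :=
    mul_ne_zero (inv_ne_zero (mul_ne_zero ha ((map_ne_zero σ₀).2 ha))) (mul_ne_zero hc hd')
  have e3 : up (M * M.map s) = ((a * σ₀ a)⁻¹ * (c * d)) • (1 : Matrix I I K) := by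
    rw [e2, hM, P011LD.map_smul', h0.map, Matrix.smul_mul, Matrix.mul_smul, smul_smul, smul_smul,
      ← up_mul] at e1
    rw [mul_smul, ← e1, inv_smul_smul₀ (mul_ne_zero ha ((map_ne_zero σ₀).2 ha))]
  generalize (a * σ₀ a)⁻¹ * (c * d) = β at hβ e3
  obtain ⟨β, rfl⟩ : ∃ y : L, (y : K) = β :=
    ⟨(M * M.map s) i i, (congrFun (congrFun e3 i) i).trans (by simp)⟩
  rw [← up_one (L := L), ← up_smul] at e3
  replace e3 := up_inj e3
  have e4 : M.map s * M = s β • (1 : Matrix I I L) := by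
    have := congrArg (·.map s) e3
    simp only [map_mul', P011LD.map_smul', map_one'] at this
    rwa [show (M.map s).map s = M from Matrix.ext fun p q => hs _] at this
  have e5 : s β = β := by
    have e6 := Matrix.mul_assoc M (M.map s) M
    rw [e3, e4, Matrix.smul_mul, Matrix.mul_smul, Matrix.one_mul, Matrix.mul_one] at e6
    by_contra e7
    have e8 : M = 0 := by
      rw [← sub_eq_zero, ← sub_smul, smul_eq_zero] at e6
      exact e6.resolve_left fun e => e7 (sub_eq_zero.1 e).symm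
    exact h.ne σ₀ (by rw [hM, e8]; exact smul_eq_zero.2 (Or.inr (Matrix.ext fun _ _ => rfl)))
  obtain ⟨b, hb⟩ := fixed_top (k := k) (c := (β : K)) fun σ =>
    (hd σ).elim (fun e => e _ β.2) fun e => (e β).trans (congrArg _ e5)
  refine ⟨M, b, fun e => hβ (by rw [← hb, e, map_zero]), ?_, fun σ hσ => ?_⟩
  · rw [e3, show algebraMap k L b = β from Subtype.ext hb]
  · obtain ⟨e, he, e6⟩ := h1 σ hσ
    exact ⟨e * a, mul_ne_zero he ha, by rw [e6, hM, smul_smul]⟩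

/-- the extension of scalars of a vector -/
def uv (v : I → L) : I → K := fun i => (v i : K)

theorem uv_add (v w : I → L) : uv (v + w) = uv v + uv w := rfl
theorem uv_smul (a : L) (v : I → L) : uv (a • v) = (a : K) • uv v := rfl

theorem uv_mul (M : Matrix I I L) (v : I → L) : uv (M *ᵥ v) = up M *ᵥ uv v :=
  funext fun i => RingHom.map_mulVec (algebraMap L K) M v i

theorem uv_single (i : I) : uv (Pi.single i (1 : L)) = Pi.single i (1 : K) := funext fun j => by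
  by_cases h : j = i <;> simp [uv, h]

theorem zero_of_polar (Q : QuadraticForm K (I → K)) {x : I → K}
    (h : ∀ i, polar Q x (Pi.single i 1) = 0) (w : I → K) : polar Q x w = 0 := by
  rw [← Finset.univ_sum_single w, ← polarBilin_apply_apply, map_sum]
  exact Finset.sum_eq_zero fun i _ => by
    rw [← mul_one (w i), ← smul_eq_mul, Pi.single_smul, map_smul, polarBilin_apply_apply, h,
      smul_zero]

/-- a form which is multiplied by scalars under the Galois group of `L` descends -/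
theorem desc [IsGalois k K] [Nonempty I] (Q : QuadraticForm K (I → K))
    (nd : ∀ v, (∀ w, polar Q v w = 0) → v = 0)
    (h : ∀ σ, Fx L σ → ∃ c : K, ∀ v : I → L, σ (Q (uv v)) = c * Q (uv v)) :
    ∃ (q : QuadraticForm L (I → L)) (c : K) (x : I → L), c ≠ 0 ∧ q x = 1 ∧
      ∀ v, Q (uv v) = c * q v := by
  obtain ⟨x, hx⟩ : ∃ x : I → L, Q (uv x) ≠ 0 := by
    by_contra h1
    push Not at h1
    obtain ⟨i⟩ := ‹Nonempty I›
    have h2 := nd (Pi.single i 1) (zero_of_polar Q fun j => by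
      rw [← uv_single (L := L), ← uv_single (L := L), polar, ← uv_add, h1, h1, h1]; simp)
    simpa using congrFun h2 i
  have h1 : ∀ v : I → L, (Q (uv x))⁻¹ * Q (uv v) ∈ L := fun v => fixed_sub L fun τ hτ => by
    obtain ⟨c, hc⟩ := h τ fun y hy => hτ ⟨y, hy⟩
    have h2 : c ≠ 0 := fun e => hx (by simpa [e] using hc x)
    rw [map_mul, map_inv₀, hc, hc]
    field_simp
  have h2 : ∀ v w : I → L, ((polar (fun v : I → L => (⟨_, h1 v⟩ : L)) v w : L) : K) =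
      (Q (uv x))⁻¹ * polar Q (uv v) (uv w) := fun v w => by
    rw [polar, polar, mul_sub, mul_sub]; rfl
  refine ⟨QuadraticMap.ofPolar (fun v => ⟨_, h1 v⟩) (fun a v => Subtype.ext ?_)
    (fun v v' w => Subtype.ext ?_) (fun a v w => Subtype.ext ?_), Q (uv x), x, hx,
    Subtype.ext (inv_mul_cancel₀ hx), fun v => (mul_inv_cancel_left₀ hx _).symm⟩
  · change _ * Q (uv (a • v)) = (a * a : K) * (_ * _)
    rw [uv_smul, QuadraticMap.map_smul, smul_eq_mul]; ring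
  · change _ = (_ : K) + _
    rw [h2, h2, h2, uv_add, polar_add_left, mul_add]
  · change _ = (a : K) * _
    rw [h2, h2, uv_smul, polar_smul_left, smul_eq_mul]; ring

theorem h90 {s : L ≃ₐ[k] L} (h1 : s ≠ 1) (hs : ∀ x, s (s x) = x) {z : L} (hz : z * s z = 1) :
    ∃ y : L, y ≠ 0 ∧ y * z = s y := by
  have h2 : ∀ y : L, (y + s (z * y)) * z = s (y + s (z * y)) := fun y => by
    rw [map_add, hs, map_mul]; linear_combination s y * hz
  by_contra h
  push Not at h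
  have h3 : ∀ y : L, y + s z * s y = 0 := fun y => by
    by_contra h3
    rw [← map_mul] at h3
    exact h _ h3 (h2 y)
  refine h1 (AlgEquiv.ext fun y => ?_)
  have h4 := h3 1
  rw [map_one] at h4
  change s y = y
  linear_combination s y * h4 - h3 y

theorem map_vec (σ : K ≃ₐ[k] K) (M : Matrix I I K) (v : I → K) :
    σ ∘ (M *ᵥ v) = M.map σ *ᵥ (σ ∘ v) :=
  funext fun i => RingHom.map_mulVec (σ : K →+* K) M v i

theorem cob {A : (K ≃ₐ[k] K) → GL I K} {g : GL I K} {B : (K ≃ₐ[k] K) → Matrix I I K}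
    [FiniteDimensional k L] (hB : ∀ σ, (A σ).1 * g.1.map σ = g.1 * B σ) (h : Pc L B)
    {s : L ≃ₐ[k] L} (h1 : s ≠ 1) (hs : ∀ x, s (s x) = x) (hd : ∀ σ, Fx L σ ∨ Ac s σ)
    {N : Matrix I I L} (hN : N * N.map s = 1)
    (he : ∀ σ, Ac s σ → ∃ e : K, e ≠ 0 ∧ B σ = e • up N) : Cob A := by
  classical
  have hx : ∀ σ, Ac s σ → ¬Fx L σ := fun σ e e' =>
    h1 (AlgEquiv.ext fun x => Subtype.ext ((e x).symm.trans (e' _ x.2)))
  have h2 : ∀ σ, ∃ e : Kˣ, B σ = (e : K) • up (if Fx L σ then 1 else N) := fun σ => by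
    split_ifs with e
    · obtain ⟨c, hc, e1⟩ := h.sc σ e
      exact ⟨Units.mk0 c hc, by rw [up_one]; exact e1⟩
    · obtain ⟨c, hc, e1⟩ := he σ ((hd σ).resolve_left e)
      exact ⟨Units.mk0 c hc, e1⟩
  choose μ hμ using h2
  have h3 : ∀ σ τ, up (if Fx L σ then 1 else N) * (up (if Fx L τ then 1 else N)).map σ =
      up (if Fx L (σ * τ) then 1 else N) := fun σ τ => by
    rcases hd σ with e | e <;> rcases hd τ with e' | e'
    · rw [if_pos e, if_pos e', if_pos (show Fx L (σ * τ) from fun x hx =>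
        (congrArg σ (e' x hx)).trans (e x hx)), e.map,
        ← up_mul, Matrix.mul_one]
    · rw [if_pos e, if_neg (hx _ e'), if_neg (hx _ fun x => (congrArg σ (e' x)).trans
        (e _ (s x).2)), e.map, ← up_mul, Matrix.one_mul]
    · rw [if_neg (hx _ e), if_pos e', if_neg (hx _ fun x => (congrArg σ (e' _ x.2)).trans (e x)),
        up_one, map_one', Matrix.mul_one]
    · rw [if_neg (hx _ e), if_neg (hx _ e'), if_pos (show Fx L (σ * τ) from fun x m =>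
        (congrArg σ (e' ⟨x, m⟩)).trans ((e _).trans (congrArg Subtype.val (hs ⟨x, m⟩)))), e.map, ← up_mul, hN]
  have hi : ∀ σ : K ≃ₐ[k] K, g.1.map σ * g⁻¹.1.map σ = 1 := fun σ => by
    rw [← map_mul', Units.mul_inv, map_one']
  refine ⟨μ, fun σ τ => ?_, ((Op.of_field (Γ := ⊤) L fun _ _ e => e).and (Op.mat ⊤ g.1)).imp
    fun τ _ e => ?_⟩
  · have e1 : (A σ).1 * (A τ).1.map σ * g.1.map (σ * τ : K ≃ₐ[k] K) =
        (μ σ * σ (μ τ) : K) • (g.1 * up (if Fx L (σ * τ) then 1 else N)) := by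
      rw [show g.1.map (σ * τ : K ≃ₐ[k] K) = (g.1.map τ).map σ from rfl, Matrix.mul_assoc,
        ← map_mul', hB, map_mul', ← Matrix.mul_assoc, hB, hμ σ, hμ τ, P011LD.map_smul', ← h3]
      simp only [Matrix.mul_smul, Matrix.smul_mul, smul_smul, Matrix.mul_assoc, mul_comm]
    have e2 : ((μ (σ * τ) : K) • ((A σ).1 * (A τ).1.map σ)) * g.1.map (σ * τ : K ≃ₐ[k] K) =
        ((μ σ * σ (μ τ) : K) • (A (σ * τ)).1) * g.1.map (σ * τ : K ≃ₐ[k] K) := by
      rw [Matrix.smul_mul, Matrix.smul_mul, e1, hB, hμ (σ * τ), Matrix.mul_smul, smul_comm]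
    rw [← Matrix.mul_one (_ • _), ← hi (σ * τ), ← Matrix.mul_assoc, e2, Matrix.mul_assoc, hi,
      Matrix.mul_one]
  · have e1 := hB τ
    rw [e.2, hμ, if_pos (show Fx L τ from e.1), up_one, Matrix.mul_smul, Matrix.mul_one] at e1
    rw [← Matrix.mul_one (A τ).1, ← g.mul_inv, ← Matrix.mul_assoc, e1, Matrix.smul_mul]

/-- **Descent to the quadratic extension.** -/
theorem do2 : DO2 := by
  intro k K _ _ _ _ I _ _ _ Q A l nd hA hQ hC L h2 ⟨g, hg⟩
  haveI : FiniteDimensional k L := Module.finite_of_finrank_pos (by omega)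
  obtain ⟨s, σ₀, h1, hs, h0, hd⟩ := gal (K := K) h2
  have hi : ∀ σ : K ≃ₐ[k] K, g.1.map σ * g⁻¹.1.map σ = 1 := fun σ => by
    rw [← map_mul', Units.mul_inv, map_one']
  obtain ⟨B, hB⟩ : ∃ B : (K ≃ₐ[k] K) → Matrix I I K, ∀ σ, (A σ).1 * g.1.map σ = g.1 * B σ :=
    ⟨fun σ => g⁻¹.1 * ((A σ).1 * g.1.map σ), fun σ => (Units.mul_inv_cancel_left _ _).symm⟩
  have can : ∀ X Y : Matrix I I K, g.1 * X = g.1 * Y → X = Y := fun X Y e => by
    rw [← Units.inv_mul_cancel_left g X, e, Units.inv_mul_cancel_left]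
  have hn : ∀ σ, B σ ≠ 0 := fun σ e => (A σ).ne_zero (by
    rw [← Matrix.mul_one (A σ).1, ← hi σ, ← Matrix.mul_assoc, hB, e, Matrix.mul_zero,
      Matrix.zero_mul])
  have hP : Pc L B := ⟨fun σ τ => by
    obtain ⟨c, e, e'⟩ := hA.mul σ trivial τ trivial
    refine ⟨c, fun e0 => ?_, can _ _ ?_⟩
    · rw [e0, zero_pow two_ne_zero, zero_mul] at e'
      exact mul_ne_zero (hA.ne σ trivial) ((map_ne_zero σ).2 (hA.ne τ trivial)) e'
    · rw [← Matrix.mul_assoc, ← hB, Matrix.mul_assoc, ← map_mul', ← hB, map_mul',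
        ← Matrix.mul_assoc, e, Matrix.mul_smul, ← hB, Matrix.smul_mul]
      rfl, hn, fun σ e => by
    obtain ⟨c, e1⟩ := hg σ e
    have e2 : B σ = c • 1 := can _ _ (by rw [← hB, e1, Matrix.mul_smul, Matrix.mul_one])
    exact ⟨c, fun e0 => hn σ (by rw [e2, e0, zero_smul]), e2⟩⟩
  obtain ⟨M, b, hb, hM, he⟩ := hP.rat hs h0 hd
  have hv : ∀ σ v, (A σ).1 *ᵥ (σ ∘ (g.1 *ᵥ v)) = g.1 *ᵥ (B σ *ᵥ (σ ∘ v)) := fun σ v => by
    rw [map_vec, mulVec_mulVec, hB, mulVec_mulVec]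
  have nd' : ∀ v, (∀ w, polar (Q.comp g.1.mulVecLin) v w = 0) → v = 0 := fun v h => by
    have e := nd (g.1 *ᵥ v) fun w => by
      have := h (g⁻¹.1 *ᵥ w)
      rwa [show polar (Q.comp g.1.mulVecLin) v (g⁻¹.1 *ᵥ w) =
        polar Q (g.1 *ᵥ v) (g.1 *ᵥ (g⁻¹.1 *ᵥ w)) by
          simp only [polar, QuadraticMap.comp_apply, mulVecLin_apply, mulVec_add],
        mulVec_mulVec, Units.mul_inv, one_mulVec] at this
    rw [← one_mulVec v, ← g.inv_mul, ← mulVec_mulVec, e, mulVec_zero]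
  obtain ⟨q, c, x, hc, hx, hq⟩ := desc (L := L) (Q.comp g.1.mulVecLin) nd' fun σ e => by
    obtain ⟨d, -, e1⟩ := hP.sc σ e
    refine ⟨(l σ)⁻¹ * (d * d), fun v => ?_⟩
    have e2 := hQ σ (g.1 *ᵥ uv v)
    rw [hv, e1, show σ ∘ uv v = uv v from funext fun i => e _ (v i).2, smul_mulVec, one_mulVec,
      mulVec_smul, QuadraticMap.map_smul, smul_eq_mul] at e2
    change σ (Q (g.1 *ᵥ uv v)) = _ * Q (g.1 *ᵥ uv v)
    rw [mul_assoc, e2, inv_mul_cancel_left₀ (hA.ne σ trivial)]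
  replace hq : ∀ v, Q (g.1 *ᵥ uv v) = c * q v := hq
  have hJ : ∀ σ, Ac s σ → ∃ e : K, e ≠ 0 ∧ ∀ v : I → L,
      (A σ).1 *ᵥ (σ ∘ (g.1 *ᵥ uv v)) = e • g.1 *ᵥ uv (M *ᵥ (s ∘ v)) := fun σ hσ => by
    obtain ⟨e, e0, e1⟩ := he σ hσ
    exact ⟨e, e0, fun v => by
      rw [hv, e1, smul_mulVec, mulVec_smul, uv_mul,
        show σ ∘ uv v = uv (s ∘ v) from funext fun i => hσ (v i)]⟩
  have hJJ : ∀ v : I → L, M *ᵥ (s ∘ (M *ᵥ (s ∘ v))) = algebraMap k L b • v := fun v => by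
    rw [map_vec, mulVec_mulVec, hM, smul_mulVec, one_mulVec,
      show s ∘ s ∘ v = v from funext fun i => hs _]
  have hm : ∀ v, q (M *ᵥ (s ∘ v)) = q (M *ᵥ (s ∘ x)) * s (q v) := fun v => Subtype.ext (by
    obtain ⟨e, e0, e1⟩ := hJ σ₀ h0
    have e2 : ∀ v, e * e * (c * q (M *ᵥ (s ∘ v))) = l σ₀ * (σ₀ c * s (q v)) := fun v => by
      rw [← hq, ← smul_eq_mul, ← QuadraticMap.map_smul, ← e1, hQ, hq, map_mul, h0]
    have e3 := e2 x
    rw [hx, map_one] at e3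
    refine mul_left_cancel₀ (mul_ne_zero (mul_ne_zero e0 e0) hc) ?_
    change _ = _ * ((q (M *ᵥ (s ∘ x)) : K) * (s (q v) : K))
    change _ = l σ₀ * (σ₀ c * 1) at e3
    linear_combination e2 v - (s (q v) : K) * e3)
  generalize q (M *ᵥ (s ∘ x)) = m at hm
  have hb' : algebraMap k L b ≠ 0 := (map_ne_zero _).2 hb
  obtain ⟨y, hy, ey⟩ := h90 h1 hs (z := m / algebraMap k L b) (by
    have e := hm (M *ᵥ (s ∘ x))
    rw [hJJ, hm, QuadraticMap.map_smul, hx, map_one, mul_one, smul_eq_mul, mul_one] at e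
    rw [map_div₀, s.commutes, div_mul_div_comm, ← e, div_self (mul_ne_zero hb' hb')])
  refine ⟨⟨s, b, y • q, ⟨⟨fun v => M *ᵥ (s ∘ v), ?_⟩, fun v w => ?_⟩, h2, h1, fun t v => ?_, hJJ,
    fun v => ?_, fun v h => ?_, fun t e => hC ?_⟩, g, c / y, div_ne_zero hc fun e => hy
      (Subtype.ext e), fun v => ?_, fun σ => ?_⟩
  · rw [show s ∘ (0 : I → L) = 0 from funext fun _ => map_zero s, mulVec_zero]
  · change M *ᵥ (s ∘ (v + w)) = M *ᵥ (s ∘ v) + M *ᵥ (s ∘ w)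
    rw [← mulVec_add]; exact congrArg _ (funext fun _ => map_add s _ _)
  · change M *ᵥ (s ∘ (t • v)) = s t • M *ᵥ (s ∘ v)
    rw [← mulVec_smul]; exact congrArg _ (funext fun _ => map_mul s _ _)
  · change y * q (M *ᵥ (s ∘ v)) = _ * s (y * q v)
    rw [hm, map_mul, ← ey]
    field_simp
  · have e := nd' (uv v) (zero_of_polar _ fun i => by
      have e1 := h (Pi.single i 1)
      simp only [polar, QuadraticMap.smul_apply, smul_eq_mul, ← mul_sub, mul_eq_zero, hy,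
        false_or] at e1
      rw [← uv_single (L := L), polar, ← uv_add]
      change Q (g.1 *ᵥ _) - Q (g.1 *ᵥ _) - Q (g.1 *ᵥ _) = 0
      rw [hq, hq, hq, ← mul_sub, ← mul_sub]
      exact mul_eq_zero.2 (Or.inr (congrArg Subtype.val e1)))
    exact funext fun i => Subtype.ext (congrFun e i)
  · have ht : t ≠ 0 := fun e0 => hb' (by rw [← e, e0, zero_mul])
    refine cob hB hP h1 hs hd (N := t⁻¹ • M) ?_ fun σ hσ => ?_
    · rw [P011LD.map_smul', Matrix.smul_mul, Matrix.mul_smul, hM, smul_smul, smul_smul, ← e, map_inv₀,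
        ← mul_inv, inv_mul_cancel₀ (e ▸ hb'), one_smul]
    · obtain ⟨e', e0, e1⟩ := he σ hσ
      have ht' : (t : K) ≠ 0 := fun e0 => ht (Subtype.ext e0)
      exact ⟨e' * t, mul_ne_zero e0 ht', by
        rw [e1, up_smul, smul_smul, mul_assoc, IntermediateField.coe_inv, mul_inv_cancel₀ ht',
          mul_one]⟩
  · have hy' : (y : K) ≠ 0 := fun e => hy (Subtype.ext e)
    change Q (g.1 *ᵥ uv v) = c / y * ((y : K) * (q v : K))
    rw [hq]
    field_simp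
  · rcases hd σ with e | e
    · obtain ⟨d, d0, e1⟩ := hP.sc σ e
      exact ⟨d, d0, Or.inl ⟨e, by rw [hB, e1, Matrix.mul_smul, Matrix.mul_one]⟩⟩
    · obtain ⟨d, d0, e1⟩ := hJ σ e
      exact ⟨d, d0, Or.inr ⟨e, e1⟩⟩

end Vale.Agent.P011UO2
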